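import Vale.Agent.P200.Slope.Count
import Vale.Agent.P200.Chain.Steps

/-!
P200: when any two independent linear forms carry a space onto its first contraction, the second
gain in dimension is at most the first less two.
-/

noncomputable section

namespace Vale.Agent.P200.Slope

open Module

variable {K W : Type*} [Field K] [AddCommGroup W] [Module K W]

/-- Three vectors span all three-dimensional space. -/
def Sp (a b c : Fin 3 → K) : Prop := ∀ z : Fin 3 → K, ∃ p q r : K, z = p • a + q • b + r • c

/-- The images under all linear forms. -/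
def img (o : (Fin 3 → K) →ₗ[K] Module.End K W) (U : Submodule K W) : Submodule K W :=
  Chain.next (o (Pi.single 0 1)) (o (Pi.single 1 1)) (o (Pi.single 2 1)) U

instance (o : (Fin 3 → K) →ₗ[K] Module.End K W) (U : Submodule K W) [FiniteDimensional K U] :
    FiniteDimensional K (img o U) := by
  unfold img; infer_instance

variable {o : (Fin 3 → K) →ₗ[K] Module.End K W}

lemma mem_img {U : Submodule K W} (z : Fin 3 → K) {φ : W} (hφ : φ ∈ U) : o z φ ∈ img o U := by
  have hz : z = z 0 • Pi.single 0 1 + z 1 • Pi.single 1 1 + z 2 • Pi.single 2 1 :=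
    funext fun i => by fin_cases i <;> simp
  rw [hz, map_add, map_add, map_smul, map_smul, map_smul]
  simp only [LinearMap.add_apply, LinearMap.smul_apply]
  refine add_mem (add_mem (Submodule.smul_mem _ _ ?_) (Submodule.smul_mem _ _ ?_))
    (Submodule.smul_mem _ _ ?_)
  · exact Submodule.mem_sup_left (Submodule.mem_sup_left (Submodule.mem_map_of_mem hφ))
  · exact Submodule.mem_sup_left (Submodule.mem_sup_right (Submodule.mem_map_of_mem hφ))
  · exact Submodule.mem_sup_right (Submodule.mem_map_of_mem hφ)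

lemma map_le_img (z : Fin 3 → K) (U : Submodule K W) : U.map (o z) ≤ img o U := by
  rintro _ ⟨φ, hφ, rfl⟩
  exact mem_img z hφ

lemma map_comm (hc : ∀ a b, Commute (o a) (o b)) (a b : Fin 3 → K) (U : Submodule K W) :
    (U.map (o a)).map (o b) = (U.map (o b)).map (o a) := by
  rw [← Submodule.map_comp, ← Submodule.map_comp, ← Module.End.mul_eq_comp,
    ← Module.End.mul_eq_comp, (hc b a).eq]

/-- A pair which carries `U` onto its images does so at the next step as well. -/
lemma img_img (hc : ∀ a b, Commute (o a) (o b)) {U : Submodule K W} {a b : Fin 3 → K}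
    (h : img o U = U.map (o a) ⊔ U.map (o b)) :
    img o (img o U) = (img o U).map (o a) ⊔ (img o U).map (o b) := by
  refine le_antisymm ?_ (sup_le (map_le_img a _) (map_le_img b _))
  have key : ∀ z, (img o U).map (o z) ≤ (img o U).map (o a) ⊔ (img o U).map (o b) := fun z => by
    conv_lhs => rw [h, Submodule.map_sup, map_comm hc a z, map_comm hc b z]
    exact sup_le_sup (Submodule.map_mono (map_le_img z U)) (Submodule.map_mono (map_le_img z U))
  exact sup_le (sup_le (key _) (key _)) (key _)

lemma exists_sp {v : Fin 3 → K} (hv : v ≠ 0) : ∃ x y, Sp v x y := by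
  obtain ⟨k, hk⟩ := Function.ne_iff.1 hv
  simp only [Pi.zero_apply] at hk
  refine ⟨Pi.single (k.succAbove (0 : Fin 2)) 1, Pi.single (k.succAbove (1 : Fin 2)) 1, fun z => ?_⟩
  set p := z k / v k
  refine ⟨p, z (k.succAbove (0 : Fin 2)) - p * v (k.succAbove (0 : Fin 2)),
    z (k.succAbove (1 : Fin 2)) - p * v (k.succAbove (1 : Fin 2)), funext fun i => ?_⟩
  refine Fin.succAboveCases k ?_ (fun m => ?_) i
  · simp [p, div_mul_cancel₀ _ hk]
  · fin_cases m <;> simp

variable [IsAlgClosed K]

/-- The cokernels of one form shrink. -/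
lemma coker_drop (hc : ∀ a b, Commute (o a) (o b)) {U : Submodule K W} [FiniteDimensional K U]
    {v x y : Fin 3 → K} (hx : img o U = U.map (o v) ⊔ U.map (o x))
    (hy : ∀ r : K, img o U = U.map (o v) ⊔ U.map (o (y - r • x)))
    (hlt : finrank K (U.map (o v)) < finrank K (img o U)) :
    finrank K (img o (img o U)) + finrank K (U.map (o v)) <
      finrank K (img o U) + finrank K ((img o U).map (o v)) := by
  set N1 := img o U
  set N2 := img o N1
  set D0 : Submodule K N1 := (U.map (o v)).comap N1.subtype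
  set D1 : Submodule K N2 := (N1.map (o v)).comap N2.subtype
  let m : (Fin 3 → K) → (N1 →ₗ[K] N2) := fun z => (o z).restrict fun φ hφ => mem_img z hφ
  let A : (Fin 3 → K) → (N1 ⧸ D0 →ₗ[K] N2 ⧸ D1) := fun z => Submodule.mapQ D0 D1 (m z) (by
    rintro φ ⟨ψ, hψ, hψφ⟩
    refine ⟨o z ψ, mem_img z hψ, ?_⟩
    show o v (o z ψ) = o z φ.1
    rw [← Module.End.mul_apply, (hc v z).eq, Module.End.mul_apply]
    exact congrArg (o z) hψφ)
  have hsur : ∀ z, img o U = U.map (o v) ⊔ U.map (o z) → Function.Surjective (A z) := by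
    intro z hz w
    induction w using Submodule.Quotient.induction_on with
    | H w =>
      obtain ⟨s, hs, t, ⟨ψ, hψ, rfl⟩, hst⟩ := Submodule.mem_sup.1 ((img_img hc hz).le w.2)
      refine ⟨Submodule.Quotient.mk ⟨ψ, hψ⟩, (Submodule.Quotient.eq _).2 ?_⟩
      show o z ψ - w.1 ∈ N1.map (o v)
      rw [← hst, sub_add_eq_sub_sub, sub_right_comm, sub_self, zero_sub]
      exact neg_mem hs
  have h0 := Submodule.finrank_quotient_add_finrank D0
  have h1 := Submodule.finrank_quotient_add_finrank D1
  rw [(Submodule.comapSubtypeEquivOfLe (map_le_img v U)).finrank_eq] at h0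
  rw [(Submodule.comapSubtypeEquivOfLe (map_le_img v N1)).finrank_eq] at h1
  by_contra hcon
  have hle := LinearMap.finrank_range_add_finrank_ker (A x)
  rw [LinearMap.range_eq_top.2 (hsur x hx), finrank_top] at hle
  have hinj : ∀ z, img o U = U.map (o v) ⊔ U.map (o z) → ∀ w, A z w = 0 → w = 0 := by
    intro z hz
    have h := LinearMap.finrank_range_add_finrank_ker (A z)
    rw [LinearMap.range_eq_top.2 (hsur z hz), finrank_top] at h
    exact LinearMap.ker_eq_bot'.1 (Submodule.finrank_eq_zero.1 (by omega))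
  set e := LinearEquiv.ofBijective (A x) ⟨(injective_iff_map_eq_zero _).2 (hinj x hx), hsur x hx⟩
  have : Nontrivial (N1 ⧸ D0) := Module.nontrivial_of_finrank_pos (R := K) (by omega)
  obtain ⟨r, hr⟩ := Module.End.exists_eigenvalue (e.symm.toLinearMap.comp (A y))
  obtain ⟨w, hw⟩ := hr.exists_hasEigenvector
  refine hw.2 (hinj _ (hy r) w ?_)
  have h := congrArg e hw.apply_eq_smul
  rw [LinearMap.comp_apply, LinearEquiv.coe_coe, LinearEquiv.apply_symm_apply, map_smul,
    show e w = A x w from rfl] at h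
  revert h
  induction w using Submodule.Quotient.induction_on with
  | H φ =>
    intro h
    simp only [A, Submodule.mapQ_apply, ← Submodule.Quotient.mk_smul, Submodule.Quotient.eq] at h
    refine (Submodule.Quotient.mk_eq_zero _).2 ?_
    show o (y - r • x) φ.1 ∈ N1.map (o v)
    rw [map_sub, map_smul]
    exact h

/-- The second gain is at most the first less two. -/
theorem gain_drop (hc : ∀ a b, Commute (o a) (o b)) {U : Submodule K W} [FiniteDimensional K U]
    (hpair : ∀ a b c, Sp a b c → img o U = U.map (o a) ⊔ U.map (o b))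
    (hkill : ∀ a b c, Sp a b c → ∀ φ ∈ U, o a φ = 0 → o b φ = 0 → φ = 0) {u D : ℕ}
    (hu : finrank K U = u) (h1 : finrank K (img o U) = u + D) (hD : 1 ≤ D) :
    finrank K (img o (img o U)) + 2 ≤ finrank K (img o U) + D := by
  classical
  by_contra hcon
  have hv : ∀ v : Fin 3 → K, v ≠ 0 →
      (∀ φ ∈ U, o v φ = 0 → φ = 0) ∧ (∀ φ ∈ (img o U), o v φ = 0 → φ = 0) ∧
        finrank K (img o (img o U)) + 1 = finrank K (img o U) + D := by
    intro v hv
    obtain ⟨x, y, hs⟩ := exists_sp hv
    have hd := coker_drop hc (hpair v x y hs) (fun r => hpair v (y - r • x) x fun z => by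
        obtain ⟨p, q, s, rfl⟩ := hs z
        exact ⟨p, s, q + s * r, by module⟩)
      (by have := Submodule.finrank_map_le (o v) U; omega)
    have e0 := Chain.finrank_ker_add U (o v)
    have e1 := Chain.finrank_ker_add (img o U) (o v)
    have : FiniteDimensional K ↥(U ⊓ LinearMap.ker (o v)) :=
      Submodule.finiteDimensional_of_le inf_le_left
    have : FiniteDimensional K ↥((img o U) ⊓ LinearMap.ker (o v)) :=
      Submodule.finiteDimensional_of_le inf_le_left
    by_cases hk : U ⊓ LinearMap.ker (o v) = ⊥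
    swap
    · have hg := Chain.ker_grow (hc v x) (hc v y) hk fun φ hφ h0 hor => by
        rcases hor with h | ⟨r, h⟩
        · exact hkill v x y hs φ hφ h0 h
        · refine hkill v (y - r • x) x (fun z => ?_) φ hφ h0 (by simp [h])
          obtain ⟨p, q, s, rfl⟩ := hs z
          exact ⟨p, s, q + s * r, by module⟩
      rw [show Chain.next (o v) (o x) (o y) U = (img o U) from le_antisymm
        (sup_le (sup_le (map_le_img v U) (map_le_img x U)) (map_le_img y U))
        ((hpair v x y hs).le.trans le_sup_left)] at hg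
      omega
    rw [hk, finrank_bot] at e0
    by_cases hk' : (img o U) ⊓ LinearMap.ker (o v) = ⊥
    swap
    · have : 0 < finrank K ↥((img o U) ⊓ LinearMap.ker (o v)) :=
        Nat.pos_of_ne_zero fun h => hk' (Submodule.finrank_eq_zero.1 h)
      omega
    rw [hk', finrank_bot] at e1
    exact ⟨fun φ hφ h => (Submodule.eq_bot_iff _).1 hk φ ⟨hφ, h⟩,
      fun φ hφ h => (Submodule.eq_bot_iff _).1 hk' φ ⟨hφ, h⟩, by omega⟩
  obtain ⟨δ, rfl⟩ : ∃ δ, D = δ + 1 := ⟨D - 1, by omega⟩
  obtain ⟨-, -, h2⟩ := hv (Pi.single 0 1) (fun h => by simpa using congrFun h 0)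
  let m : (Fin 3 → K) → (U →ₗ[K] (img o U)) := fun z => (o z).restrict fun φ hφ => mem_img z hφ
  let m' : (Fin 3 → K) → ((img o U) →ₗ[K] (img o (img o U))) := fun z => (o z).restrict fun φ hφ => mem_img z hφ
  have hne : ∀ p q : K, p ≠ 0 ∨ q ≠ 0 →
      p • Pi.single 0 1 + q • Pi.single 1 1 ≠ (0 : Fin 3 → K) := fun p q h e => by
    have h0 := congrFun e 0
    have h1 := congrFun e 1
    simp at h0 h1
    tauto
  have hcomm : ∀ a b (x : Module.Dual K (img o (img o U))) (φ : U),
      x (m' a (m b φ)) = x (m' b (m a φ)) := fun a b x φ => by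
    congr 1
    refine Subtype.ext ?_
    show o a (o b φ.1) = o b (o a φ.1)
    rw [← Module.End.mul_apply, (hc a b).eq, Module.End.mul_apply]
  have hzero : ∀ a b c, Sp a b c → ∀ x : Module.Dual K (img o (img o U)),
      (m' a).dualMap x = 0 → (m' b).dualMap x = 0 → x = 0 := fun a b c hs x ha hb => by
    refine LinearMap.ext fun w => ?_
    obtain ⟨_, ⟨φ, hφ, rfl⟩, _, ⟨ψ, hψ, rfl⟩, hst⟩ :=
      Submodule.mem_sup.1 ((img_img hc (hpair a b c hs)).le w.2)
    rw [show w = m' a ⟨φ, hφ⟩ + m' b ⟨ψ, hψ⟩ from Subtype.ext hst.symm, map_add,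
      show x (m' a ⟨φ, hφ⟩) = 0 from LinearMap.congr_fun ha _,
      show x (m' b ⟨ψ, hψ⟩) = 0 from LinearMap.congr_fun hb _, add_zero]
    rfl
  have hadd' : ∀ (p q : K) a b, (m' (p • a + q • b)).dualMap =
      p • (m' a).dualMap + q • (m' b).dualMap := fun p q a b =>
    LinearMap.ext fun x => LinearMap.ext fun φ => by
      have e : m' (p • a + q • b) φ = p • m' a φ + q • m' b φ := Subtype.ext (by simp [m'])
      simp [e]
  have hadd : ∀ (p q : K) a b, (m (p • a + q • b)).dualMap =
      p • (m a).dualMap + q • (m b).dualMap := fun p q a b =>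
    LinearMap.ext fun x => LinearMap.ext fun φ => by
      have e : m (p • a + q • b) φ = p • m a φ + q • m b φ := Subtype.ext (by simp [m])
      simp [e]
  refine no_slope (δ := δ) (u := u) (f := (m' (Pi.single 0 1)).dualMap)
    (g := (m' (Pi.single 1 1)).dualMap) (Y := (m' (Pi.single 2 1)).dualMap)
    (f' := (m (Pi.single 0 1)).dualMap) (g' := (m (Pi.single 1 1)).dualMap)
    (Y' := (m (Pi.single 2 1)).dualMap)
    (fun x => LinearMap.ext fun φ => hcomm _ _ x φ) (fun x => LinearMap.ext fun φ => hcomm _ _ x φ)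
    (fun x => LinearMap.ext fun φ => hcomm _ _ x φ) ?_ ?_ ?_ ?_
    (Subspace.dual_finrank_eq.trans hu) (Subspace.dual_finrank_eq.trans (by omega))
    (Subspace.dual_finrank_eq.trans (by omega))
  · intro p q hpq
    rw [← hadd']
    exact LinearMap.dualMap_surjective_iff.2 ((injective_iff_map_eq_zero _).2 fun z hz =>
      Subtype.ext ((hv _ (hne p q hpq)).2.1 z.1 z.2 (congrArg Subtype.val hz)))
  · intro p q hpq
    rw [← hadd]
    exact LinearMap.dualMap_surjective_iff.2 ((injective_iff_map_eq_zero _).2 fun z hz =>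
      Subtype.ext ((hv _ (hne p q hpq)).1 z.1 z.2 (congrArg Subtype.val hz)))
  · intro r p q hpq x hx hpx
    have hx' : (m' ((1 : K) • Pi.single 0 1 + r • Pi.single 1 1)).dualMap x = 0 := by
      rw [hadd']; simpa using hx
    have hpx' : (m' (p • Pi.single 1 1 + q • Pi.single 2 1)).dualMap x = 0 := by
      rw [hadd']; simpa using hpx
    by_cases hq : q = 0
    · have hp : p ≠ 0 := hpq.resolve_right (by simp [hq])
      refine hzero _ _ (Pi.single 2 1) (fun z => ⟨z 0, (z 1 - z 0 * r) / p, z 2,
        funext fun i => ?_⟩) x hx' hpx'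
      fin_cases i <;> simp [hq, hp]
    · refine hzero _ _ (Pi.single 1 1) (fun z => ⟨z 0, z 2 / q, z 1 - z 0 * r - z 2 / q * p,
        funext fun i => ?_⟩) x hx' hpx'
      fin_cases i <;> simp [hq]
  · intro p q hpq x hx hpx
    have hpx' : (m' (p • Pi.single 0 1 + q • Pi.single 2 1)).dualMap x = 0 := by
      rw [hadd']; simpa using hpx
    by_cases hp : p = 0
    · have hq : q ≠ 0 := hpq.resolve_left (by simp [hp])
      refine hzero _ _ (Pi.single 0 1) (fun z => ⟨z 1, z 2 / q, z 0,
        funext fun i => ?_⟩) x hx hpx'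
      fin_cases i <;> simp [hp, hq]
    · refine hzero _ _ (Pi.single 2 1) (fun z => ⟨z 1, z 0 / p, z 2 - z 0 / p * q,
        funext fun i => ?_⟩) x hx hpx'
      fin_cases i <;> simp [hp]

end Vale.Agent.P200.Slope
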