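import Vale.Agent.P200.Slope.Pencil

/-!
P200: two pencils of surjections in a row with kernels of dimensions `δ` and `δ + 1`, any two
members jointly injective at the first step, do not exist: the cokernel of a map between spaces of
vectors of polynomials would be a space with an automorphism without eigenvalues.
-/

noncomputable section

namespace Vale.Agent.P200.Slope

open Module Finset

variable {K : Type*} [Field K] {V2 V1 V0 : Type*} [AddCommGroup V2] [Module K V2]
  [AddCommGroup V1] [Module K V1] [AddCommGroup V0] [Module K V0]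

lemma sol_top {f g : V2 →ₗ[K] V1} {j : ℕ} {w : ℕ → V2} (hw : w ∈ sol f g j) {k : ℕ}
    (hk : j ≤ k + 1) : g (w k) = 0 := by
  have h := congrFun (LinearMap.mem_ker.1 hw.2) (k + 1)
  rwa [rel_succ, hw.1 (k + 1) hk, map_zero, zero_add] at h

lemma evr_comp (φ : V2 →ₗ[K] V1) (r : K) (j : ℕ) (w : ℕ → V2) :
    evr r j (φ.compLeft ℕ w) = φ (evr r j w) := by
  simp [evr_apply, map_sum]

lemma sh_comp (φ : V2 →ₗ[K] V1) (w : ℕ → V2) :
    φ.compLeft ℕ (sh K V2 w) = sh K V1 (φ.compLeft ℕ w) :=
  funext fun k => by rcases k with _ | k <;> simp [sh_zero, sh_succ]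

lemma rel_comp {f g : V2 →ₗ[K] V1} {f' g' : V1 →ₗ[K] V0} {φ : V2 →ₗ[K] V1} {φ' : V1 →ₗ[K] V0}
    (hf : ∀ x, f' (φ x) = φ' (f x)) (hg : ∀ x, g' (φ x) = φ' (g x)) (w : ℕ → V2) :
    rel f' g' (φ.compLeft ℕ w) = φ'.compLeft ℕ (rel f g w) :=
  funext fun k => by rcases k with _ | k <;> simp [rel_zero, rel_succ, hf, hg]

variable (g Y : V2 →ₗ[K] V1) (δ : ℕ)

/-- The next member of each pair against the first. -/
def theta : (Fin (δ + 1) → ℕ → V2) →ₗ[K] (Fin δ → ℕ → V1) :=
  LinearMap.pi fun i => (g.compLeft ℕ).comp (LinearMap.proj i.castSucc) -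
    (Y.compLeft ℕ).comp (LinearMap.proj i.succ)

lemma theta_apply (a : Fin (δ + 1) → ℕ → V2) (i : Fin δ) :
    theta g Y δ a i = g.compLeft ℕ (a i.castSucc) - Y.compLeft ℕ (a i.succ) := rfl

variable (f : V2 →ₗ[K] V1)

/-- The vectors of solutions with lengths falling by one. -/
def Src (d : ℕ) : Submodule K (Fin (δ + 1) → ℕ → V2) :=
  Submodule.pi Set.univ fun i => sol f g (d - i)

/-- Their targets. -/
def Tgt (f' g' : V1 →ₗ[K] V0) (d : ℕ) : Submodule K (Fin δ → ℕ → V1) :=
  Submodule.pi Set.univ fun i => sol f' g' (d - (i + 1))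

/-- The product of a family of submodules. -/
def piEquiv {ι : Type*} {M : Type*} [AddCommGroup M] [Module K M] (p : ι → Submodule K M) :
    (Submodule.pi Set.univ p) ≃ₗ[K] ((i : ι) → p i) where
  toFun a i := ⟨a.1 i, a.2 i trivial⟩
  invFun v := ⟨fun i => (v i).1, fun i _ => (v i).2⟩
  map_add' _ _ := rfl
  map_smul' _ _ := rfl
  left_inv _ := rfl
  right_inv _ := rfl

instance [FiniteDimensional K V2] (d : ℕ) : FiniteDimensional K (Src g δ f d) :=
  Module.Finite.equiv (piEquiv fun i : Fin (δ + 1) => sol f g (d - i)).symm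

instance [FiniteDimensional K V1] (f' g' : V1 →ₗ[K] V0) (d : ℕ) :
    FiniteDimensional K (Tgt δ f' g' d) :=
  Module.Finite.equiv (piEquiv fun i : Fin δ => sol f' g' (d - (i + 1))).symm

variable {g Y δ f}

lemma sum_lin (x : ℤ) : ∀ n : ℕ, 2 * ∑ i ∈ range n, (x - i) = n * (2 * x - n + 1) := by
  intro n
  induction n with
  | zero => simp
  | succ n ih => rw [sum_range_succ, mul_add, ih]; push_cast; ring

variable [IsAlgClosed K] [FiniteDimensional K V2] [FiniteDimensional K V1]

lemma finrank_src (hs : ∀ p q : K, p ≠ 0 ∨ q ≠ 0 → Function.Surjective (p • f + q • g)) {h : ℕ}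
    (h1 : finrank K V1 = h) (h2 : finrank K V2 = h + δ) {d : ℕ} (hd : h + δ ≤ d) :
    2 * (finrank K (Src g δ f d) : ℤ) =
      (δ + 1) * (2 * d - δ) * δ - 2 * (δ + 1) * h := by
  rw [show finrank K (Src g δ f d) = _ from
    (piEquiv fun i : Fin (δ + 1) => sol f g (d - i)).finrank_eq, Module.finrank_pi_fintype]
  have e : ∀ i : Fin (δ + 1), (finrank K (sol f g (d - i)) : ℤ) = ((d : ℤ) - i) * δ - h := by
    intro i
    have := i.isLt
    have h3 := finrank_sol hs (show finrank K V1 ≤ d - i by omega)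
    rw [h1, h2] at h3
    zify [show (i : ℕ) ≤ d by omega] at h3
    linear_combination h3
  rw [Nat.cast_sum, sum_congr rfl fun i _ => e i, sum_sub_distrib, ← sum_mul,
    Fin.sum_univ_eq_sum_range (fun i => (d : ℤ) - i) (δ + 1), mul_sub, ← mul_assoc, sum_lin]
  simp
  ring

lemma finrank_tgt [FiniteDimensional K V0] {f' g' : V1 →ₗ[K] V0}
    (hs : ∀ p q : K, p ≠ 0 ∨ q ≠ 0 → Function.Surjective (p • f' + q • g')) {u : ℕ}
    (h0 : finrank K V0 = u) (h1 : finrank K V1 = u + δ + 1) {d : ℕ} (hd : u + δ + 1 ≤ d) :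
    2 * (finrank K (Tgt δ f' g' d) : ℤ) =
      δ * (2 * d - δ - 1) * (δ + 1) - 2 * δ * u := by
  rw [show finrank K (Tgt δ f' g' d) = _ from
    (piEquiv fun i : Fin δ => sol f' g' (d - (i + 1))).finrank_eq, Module.finrank_pi_fintype]
  have e : ∀ i : Fin δ, (finrank K (sol f' g' (d - (i + 1))) : ℤ) =
      ((d : ℤ) - 1 - i) * (δ + 1) - u := by
    intro i
    have := i.isLt
    have h3 := finrank_sol hs (show finrank K V0 ≤ d - (i + 1) by omega)
    rw [h0, h1] at h3
    zify [show (i : ℕ) + 1 ≤ d by omega] at h3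
    linear_combination h3
  rw [Nat.cast_sum, sum_congr rfl fun i _ => e i, sum_sub_distrib, ← sum_mul,
    Fin.sum_univ_eq_sum_range (fun i => (d : ℤ) - 1 - i) δ, mul_sub, ← mul_assoc, sum_lin]
  simp
  ring

omit [FiniteDimensional K V1] in
/-- A chain in the kernel of a surjection is zero. -/
lemma ker_chain {R P Q : V2 →ₗ[K] V1} (hR : Function.Surjective R) {h : ℕ}
    (h1 : finrank K V1 = h) (h2 : finrank K V2 = h + δ)
    (hinj : ∀ p q : K, p ≠ 0 ∨ q ≠ 0 → ∀ x, R x = 0 → p • P x + q • Q x = 0 → x = 0)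
    {w : Fin (δ + 1) → V2} (hw : ∀ i, R (w i) = 0)
    (hPQ : ∀ i : Fin δ, P (w i.castSucc) = Q (w i.succ)) : ∀ i, w i = 0 := by
  intro i
  let a : ℕ → LinearMap.ker R := fun k => if hk : k < δ + 1 then ⟨w ⟨k, hk⟩, hw _⟩ else 0
  have hk : finrank K (LinearMap.ker R) ≤ δ := by
    have := LinearMap.finrank_range_add_finrank_ker R
    rw [LinearMap.range_eq_top.2 hR, finrank_top] at this
    omega
  have hz := chain_zero (P := P.domRestrict (LinearMap.ker R)) (Q := Q.domRestrict (LinearMap.ker R))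
    (fun p q hpq x hx => Subtype.ext (hinj p q hpq x.1 x.2 hx)) (a := a) hk fun k hk => by
      show P (a k).1 = Q (a (k + 1)).1
      simp only [a, dif_pos (show k < δ + 1 by omega), dif_pos (show k + 1 < δ + 1 by omega)]
      exact hPQ ⟨k, hk⟩
  have := hz i (Nat.lt_succ_iff.1 i.isLt)
  simp only [a, dif_pos i.isLt] at this
  exact congrArg Subtype.val this

variable [FiniteDimensional K V0] {f' g' : V1 →ₗ[K] V0}

/-- No two pencils like that. -/
theorem no_slope {Y' : V1 →ₗ[K] V0} (cfg : ∀ x, f' (g x) = g' (f x))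
    (cfY : ∀ x, f' (Y x) = Y' (f x)) (cgY : ∀ x, g' (Y x) = Y' (g x))
    (hs : ∀ p q : K, p ≠ 0 ∨ q ≠ 0 → Function.Surjective (p • f + q • g))
    (hs' : ∀ p q : K, p ≠ 0 ∨ q ≠ 0 → Function.Surjective (p • f' + q • g'))
    (hj1 : ∀ r p q : K, p ≠ 0 ∨ q ≠ 0 → ∀ x,
      f x + r • g x = 0 → p • g x + q • Y x = 0 → x = 0)
    (hj2 : ∀ p q : K, p ≠ 0 ∨ q ≠ 0 → ∀ x, g x = 0 → p • f x + q • Y x = 0 → x = 0)
    {u : ℕ} (h0 : finrank K V0 = u) (h1 : finrank K V1 = u + δ + 1)
    (h2 : finrank K V2 = u + δ + 1 + δ) : False := by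
  classical
  set θ := theta g Y δ
  set P := Src g δ f
  set Q := Tgt δ f' g'
  let S := (sh K V2).compLeft (Fin (δ + 1))
  let S' := (sh K V1).compLeft (Fin δ)
  have hθS : ∀ a, θ (S a) = S' (θ a) := fun a => funext fun i => by
    show g.compLeft ℕ (sh K V2 _) - Y.compLeft ℕ (sh K V2 _) = sh K V1 (theta g Y δ a i)
    rw [sh_comp, sh_comp, theta_apply, map_sub]
  have hmap : ∀ d, ∀ a ∈ P d, θ a ∈ Q d := by
    intro d a ha i _
    have h1 : a i.castSucc ∈ sol f g (d - i) := ha i.castSucc trivial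
    have h2 : a i.succ ∈ sol f g (d - (i + 1)) := ha i.succ trivial
    refine sub_mem ⟨fun k hk => sol_top h1 (by omega), LinearMap.mem_ker.2 ?_⟩
      ⟨fun k hk => ?_, LinearMap.mem_ker.2 ?_⟩
    · show rel f' g' (g.compLeft ℕ (a i.castSucc)) = 0
      rw [rel_comp (φ' := g') cfg (fun _ => rfl), LinearMap.mem_ker.1 h1.2, map_zero]
    · show Y (a i.succ k) = 0
      rw [h2.1 k hk, map_zero]
    · show rel f' g' (Y.compLeft ℕ (a i.succ)) = 0
      rw [rel_comp cfY cgY, LinearMap.mem_ker.1 h2.2, map_zero]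
  -- a divisible image has a divisible source
  have hdiv : ∀ (d : ℕ) (r : K), ∀ a ∈ P (d + 1), ∀ b ∈ Q d, θ a = S' b - r • b →
      ∃ a' ∈ P d, θ a' = b := by
    intro d r a ha b hb hab
    have hev : ∀ i : Fin (δ + 1), evr r (d + 1) (a i) = 0 := by
      refine ker_chain (R := f + r • g) (P := g) (Q := Y) ?_ h1 h2
        (fun p q hpq x hx => hj1 r p q hpq x (by simpa using hx)) (fun i => ?_) fun i => ?_
      · simpa using hs 1 r (Or.inl one_ne_zero)
      · rw [evr_mono r (Nat.sub_le (d + 1) i) (ha i trivial).1]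
        simpa using evr_sol (ha i trivial) r
      · have hb' : b i ∈ bdd K V1 d := bdd_mono (Nat.sub_le _ _) (hb i trivial).1
        have h := congrArg (fun z => evr r (d + 1) (z i)) hab
        simp only [Pi.sub_apply, Pi.smul_apply, map_sub, map_smul] at h
        rw [show S' b i = sh K V1 (b i) from rfl, evr_sh, evr_mono r (Nat.le_succ d) hb', sub_self,
          show θ a i = g.compLeft ℕ (a i.castSucc) - Y.compLeft ℕ (a i.succ) from rfl, map_sub,
          evr_comp, evr_comp, sub_eq_zero] at h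
        exact h
    have hv : ∀ i : Fin (δ + 1), ∃ v ∈ sol f g (d - i), sh K V2 v - r • v = a i := by
      intro i
      have hai : a i ∈ sol f g (d + 1 - i) := ha i trivial
      rcases Nat.lt_or_ge d i with hid | hid
      · refine ⟨0, zero_mem _, ?_⟩
        rw [map_zero, smul_zero, sub_zero]
        exact (funext fun k => hai.1 k (by omega)).symm
      · rw [show d + 1 - (i : ℕ) = d - i + 1 by omega] at hai
        refine sol_div hai ?_
        rw [← evr_mono r (show d - i + 1 ≤ d + 1 by omega) hai.1]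
        exact hev i
    choose v hvm hv using hv
    refine ⟨v, fun i _ => hvm i, sub_eq_zero.1 (funext fun i => ?_)⟩
    have hav : a = S v - r • v := funext fun i => (hv i).symm
    refine mul_inj (r := r) (j := d) ?_ ?_
    · exact sub_mem (bdd_mono (Nat.sub_le _ _) (hmap d v (fun i _ => hvm i) i trivial).1)
        (bdd_mono (Nat.sub_le _ _) (hb i trivial).1)
    · have h := congrFun hab i
      rw [hav, map_sub, map_smul, hθS] at h
      simp only [Pi.sub_apply, Pi.smul_apply] at h ⊢
      rw [map_sub, smul_sub, sub_sub_sub_comm]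
      exact sub_eq_zero.2 h
  -- a short image has a short source
  have hshort : ∀ d, ∀ a ∈ P (d + 1), θ a ∈ Q d → a ∈ P d := by
    intro d a ha hb
    have hw : ∀ i : Fin (δ + 1), a i (d - i) = 0 := by
      refine ker_chain (R := g) (P := -f) (Q := Y) (by simpa using hs 0 1 (Or.inr one_ne_zero)) h1 h2
        (fun p q hpq x hx hpx => hj2 (-p) q (by simpa using hpq) x hx (by simpa using hpx))
        (fun i => ?_) fun i => ?_
      · exact sol_top (ha i trivial) (by omega)
      · have hx : a i.castSucc ∈ sol f g (d + 1 - i) := ha i.castSucc trivial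
        have hy : a i.succ ∈ sol f g (d + 1 - (i + 1)) := ha i.succ trivial
        have hb' : g (a i.castSucc (d - (i + 1))) - Y (a i.succ (d - (i + 1))) = 0 :=
          (hb i trivial).1 _ le_rfl
        show (-f) (a i.castSucc (d - (i.castSucc : ℕ))) = Y (a i.succ (d - (i.succ : ℕ)))
        rw [Fin.val_castSucc, Fin.val_succ, LinearMap.neg_apply, ← sub_eq_zero.1 hb']
        rcases lt_trichotomy (i : ℕ) d with hid | hid | hid
        · obtain ⟨k, hk⟩ : ∃ k, d - (i : ℕ) = k + 1 := ⟨d - i - 1, by omega⟩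
          have h := congrFun (LinearMap.mem_ker.1 hx.2) (k + 1)
          rw [rel_succ, Pi.zero_apply, ← hk, add_comm] at h
          rw [show d - ((i : ℕ) + 1) = k by omega]
          exact (eq_neg_of_add_eq_zero_left h).symm
        · have h := congrFun (LinearMap.mem_ker.1 hx.2) 0
          rw [rel_zero, Pi.zero_apply] at h
          rw [show d - (i : ℕ) = 0 by omega, h, neg_zero, show d - ((i : ℕ) + 1) = 0 by omega,
            sol_top hx (by omega)]
        · rw [hx.1 _ (by omega), hx.1 _ (by omega)]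
          simp
    intro i _
    obtain ⟨hb1, hb2⟩ := ha i trivial
    refine ⟨fun k hk => ?_, hb2⟩
    rcases hk.eq_or_lt with e | hlt
    · rw [← e]; exact hw i
    · exact hb1 k (by omega)
  have hinj : ∀ d, ∀ a ∈ P d, θ a = 0 → a = 0 := by
    intro d
    induction d with
    | zero => exact fun a ha _ => funext fun i => funext fun k => (ha i trivial).1 k (by omega)
    | succ d ih => exact fun a ha h => ih a (hshort d a ha (h ▸ zero_mem _)) h
  -- the cokernels
  let M : ∀ d, Submodule K (Q d) := fun d => ((P d).map θ).comap (Q d).subtype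
  have hdimM : ∀ d, finrank K (M d) = finrank K (P d) := fun d => by
    have hle : (P d).map θ ≤ Q d := Submodule.map_le_iff_le_comap.2 (hmap d)
    rw [(Submodule.comapSubtypeEquivOfLe hle).finrank_eq, ← LinearMap.range_domRestrict,
      LinearMap.finrank_range_of_inj]
    exact LinearMap.ker_eq_bot.1 (LinearMap.ker_eq_bot'.2 fun x hx => Subtype.ext (hinj d _ x.2 hx))
  have hPup : ∀ d, ∀ a ∈ P d, a ∈ P (d + 1) ∧ S a ∈ P (d + 1) := by
    intro d a ha
    refine ⟨fun i _ => ⟨bdd_mono (by omega) (ha i trivial).1, (ha i trivial).2⟩, fun i _ => ?_⟩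
    rcases Nat.lt_or_ge d i with hid | hid
    · rw [show S a i = sh K V2 (a i) from rfl, show a i = 0 from
        funext fun k => (ha i trivial).1 k (by omega), map_zero]
      exact zero_mem _
    · exact ⟨(show d - i + 1 = d + 1 - (i : ℕ) by omega) ▸ sh_bdd (ha i trivial).1,
        LinearMap.mem_ker.2 ((rel_sh _ _ _).trans (by rw [LinearMap.mem_ker.1 (ha i trivial).2, map_zero]))⟩
  have hQup : ∀ d, ∀ b ∈ Q d, b ∈ Q (d + 1) ∧ S' b ∈ Q (d + 1) := by
    intro d b hb
    refine ⟨fun i _ => ⟨bdd_mono (by omega) (hb i trivial).1, (hb i trivial).2⟩, fun i _ => ?_⟩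
    rcases Nat.lt_or_ge d (i + 1) with hid | hid
    · rw [show S' b i = sh K V1 (b i) from rfl, show b i = 0 from
        funext fun k => (hb i trivial).1 k (by omega), map_zero]
      exact zero_mem _
    · exact ⟨(show d - (i + 1) + 1 = d + 1 - ((i : ℕ) + 1) by omega) ▸ sh_bdd (hb i trivial).1,
        LinearMap.mem_ker.2 ((rel_sh _ _ _).trans (by rw [LinearMap.mem_ker.1 (hb i trivial).2, map_zero]))⟩
  set d := u + δ + 1 + δ
  let ι : Q d →ₗ[K] Q (d + 1) := Submodule.inclusion fun b hb => (hQup d b hb).1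
  let σ : Q d →ₗ[K] Q (d + 1) := S'.restrict fun b hb => (hQup d b hb).2
  let ι' := Submodule.mapQ (M d) (M (d + 1)) ι (by
    rintro x ⟨a, ha, hax⟩
    exact ⟨a, (hPup d a ha).1, hax⟩)
  let σ' := Submodule.mapQ (M d) (M (d + 1)) σ (by
    rintro x ⟨a, ha, hax⟩
    exact ⟨S a, (hPup d a ha).2, (hθS a).trans (congrArg S' hax)⟩)
  have hι : Function.Injective ι' := by
    refine (injective_iff_map_eq_zero ι').2 fun z hz => ?_
    induction z using Submodule.Quotient.induction_on with
    | H x =>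
      rw [Submodule.mapQ_apply, Submodule.Quotient.mk_eq_zero] at hz
      obtain ⟨a, ha, hax⟩ := hz
      refine (Submodule.Quotient.mk_eq_zero _).2 ⟨a, hshort d a ha ?_, hax⟩
      rw [hax]
      exact x.2
  have hσ : ∀ r : K, ∀ z, σ' z = r • ι' z → z = 0 := by
    intro r z hz
    induction z using Submodule.Quotient.induction_on with
    | H x =>
      rw [Submodule.mapQ_apply, Submodule.mapQ_apply, ← Submodule.Quotient.mk_smul,
        Submodule.Quotient.eq] at hz
      obtain ⟨a, ha, hax⟩ := hz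
      obtain ⟨a', ha', ha'x⟩ := hdiv d r a ha x.1 x.2 hax
      exact (Submodule.Quotient.mk_eq_zero _).2 ⟨a', ha', ha'x⟩
  have hP : ∀ j, u + δ + 1 + δ ≤ j → 2 * (finrank K (P j) : ℤ) =
      (δ + 1) * (2 * j - δ) * δ - 2 * (δ + 1) * (u + δ + 1) := fun j hj => by
    have := finrank_src hs h1 h2 hj
    push_cast at this
    exact this
  have hQ : ∀ j, u + δ + 1 + δ ≤ j → 2 * (finrank K (Q j) : ℤ) =
      δ * (2 * j - δ - 1) * (δ + 1) - 2 * δ * u := fun j hj =>
    finrank_tgt hs' h0 h1 (by omega)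
  have hC : ∀ j, u + δ + 1 + δ ≤ j →
      2 * (finrank K (Q j ⧸ M j) : ℤ) = (δ + 1) * (δ + 2) + 2 * u := fun j hj => by
    have h := Submodule.finrank_quotient_add_finrank (M j)
    rw [hdimM] at h
    have h' : (finrank K (Q j ⧸ M j) : ℤ) + finrank K (P j) = finrank K (Q j) := by exact_mod_cast h
    linear_combination 2 * h' + hQ j hj - hP j hj
  have hd1 := hC d le_rfl
  have hd2 := hC (d + 1) (Nat.le_succ _)
  set e := LinearMap.linearEquivOfInjective ι' hι (by omega)
  have : Nontrivial (Q d ⧸ M d) := Module.nontrivial_of_finrank_pos (R := K) (by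
    have : (0 : ℤ) < (δ + 1) * (δ + 2) + 2 * u := by positivity
    omega)
  obtain ⟨r, hr⟩ := Module.End.exists_eigenvalue (e.symm.toLinearMap.comp σ')
  obtain ⟨z, hz⟩ := hr.exists_hasEigenvector
  refine hz.2 (hσ r z ?_)
  have := congrArg e hz.apply_eq_smul
  rwa [LinearMap.comp_apply, LinearEquiv.coe_coe, LinearEquiv.apply_symm_apply, map_smul,
    LinearMap.linearEquivOfInjective_apply] at this

end Vale.Agent.P200.Slope
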