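import Mathlib

/-!
P200: two pencils of surjections in a row whose kernels have dimensions `δ` and `δ + 1` do not exist
when every pair of members is jointly injective: counting vectors of polynomials.
-/

noncomputable section

namespace Vale.Agent.P200.Slope

open Module Finset

variable {K : Type*} [Field K] {V W : Type*} [AddCommGroup V] [Module K V] [AddCommGroup W]
  [Module K W]

/-- Two maps without a singular member have no long chains. -/
theorem chain_zero [IsAlgClosed K] [FiniteDimensional K V] {P Q : V →ₗ[K] W}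
    (hinj : ∀ p q : K, p ≠ 0 ∨ q ≠ 0 → ∀ x, p • P x + q • Q x = 0 → x = 0)
    {a : ℕ → V} {N : ℕ} (hN : finrank K V ≤ N) (h : ∀ i < N, P (a i) = Q (a (i + 1))) :
    ∀ i ≤ N, a i = 0 := by
  classical
  have hQ : ∀ x, Q x = 0 → x = 0 := fun x hx =>
    hinj 0 1 (Or.inr one_ne_zero) x (by simp [hx])
  set S := fun j : ℕ => Submodule.span K ((range (j + 1)).image a : Set V) with hS
  have hmem : ∀ i j, i ≤ j → a i ∈ S j := fun i j hij => Submodule.subset_span
    (mem_image_of_mem a (mem_range.2 (Nat.lt_succ_of_le hij)))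
  have hzero : a 0 = 0 := by
    by_contra h0
    have hgrow : ∀ j ≤ N, j + 1 ≤ finrank K (S j) := by
      intro j
      induction j with
      | zero =>
        intro _
        refine Nat.one_le_iff_ne_zero.2 fun e => h0 ?_
        exact (Submodule.eq_bot_iff _).1 (Submodule.finrank_eq_zero.1 e) _ (hmem 0 0 le_rfl)
      | succ j ih =>
        intro hj
        have hle : S j ≤ S (j + 1) := Submodule.span_mono
          (coe_subset.2 (image_subset_image (range_subset_range.2 (by omega))))
        rcases hle.eq_or_lt with heq | hlt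
        swap
        · have := Submodule.finrank_lt_finrank_of_lt hlt
          have := ih (by omega)
          omega
        exfalso
        have hPQ : ∀ x : S j, P x.1 ∈ LinearMap.range (Q.domRestrict (S j)) := by
          intro x
          suffices hsub : S j ≤ (LinearMap.range (Q.domRestrict (S j))).comap P from hsub x.2
          refine Submodule.span_le.2 fun y hy => ?_
          obtain ⟨i, hi, rfl⟩ := mem_image.1 (mem_coe.1 hy)
          rw [mem_range] at hi
          exact ⟨⟨a (i + 1), heq ▸ hmem (i + 1) (j + 1) (by omega)⟩, (h i (by omega)).symm⟩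
        obtain ⟨r, hr⟩ := LinearMap.exists_leftInverse_of_injective (Q.domRestrict (S j))
          (LinearMap.ker_eq_bot'.2 fun x hx => Subtype.ext (hQ _ hx))
        set k : Module.End K (S j) := r.comp (P.domRestrict (S j))
        have : Nontrivial (S j) := Submodule.nontrivial_iff_ne_bot.2 fun e =>
          h0 ((Submodule.eq_bot_iff _).1 e _ (hmem 0 j (by omega)))
        obtain ⟨μ, hμ⟩ := Module.End.exists_eigenvalue k
        obtain ⟨x, hx⟩ := hμ.exists_hasEigenvector
        have hk : Q (k x).1 = P x.1 := by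
          obtain ⟨y, hy⟩ := hPQ x
          have : k x = y := by
            show r (P x.1) = y
            rw [← hy]
            exact LinearMap.congr_fun hr y
          rw [this]
          exact hy
        rw [hx.apply_eq_smul] at hk
        refine hx.2 (Subtype.ext (hinj 1 (-μ) (Or.inl one_ne_zero) x.1 ?_))
        rw [Submodule.coe_smul, map_smul] at hk
        rw [one_smul, ← hk, neg_smul, add_neg_cancel]
    have := hgrow N le_rfl
    have := (S N).finrank_le
    omega
  intro i
  induction i with
  | zero => exact fun _ => hzero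
  | succ i ih =>
    intro hi
    exact hQ _ (by rw [← h i (by omega), ih (by omega), map_zero])

variable (K V)

/-- The sequences below `j`. -/
def bdd (j : ℕ) : Submodule K (ℕ → V) where
  carrier := {w | ∀ k, j ≤ k → w k = 0}
  add_mem' ha hb k hk := by simp [ha k hk, hb k hk]
  zero_mem' _ _ := rfl
  smul_mem' c w hw k hk := by simp [hw k hk]

/-- Their coordinates. -/
def bddEquiv (j : ℕ) : bdd K V j ≃ₗ[K] (Fin j → V) where
  toFun w i := w.1 i
  invFun v := ⟨fun k => if h : k < j then v ⟨k, h⟩ else 0, fun k hk => dif_neg (not_lt.2 hk)⟩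
  map_add' _ _ := rfl
  map_smul' _ _ := rfl
  left_inv w := Subtype.ext (funext fun k => by
    by_cases h : k < j
    · simp [h]
    · simp [h, w.2 k (not_lt.1 h)])
  right_inv v := funext fun i => by simp

instance [FiniteDimensional K V] (j : ℕ) : FiniteDimensional K (bdd K V j) :=
  Module.Finite.equiv (bddEquiv K V j).symm

lemma finrank_bdd [FiniteDimensional K V] (j : ℕ) :
    finrank K (bdd K V j) = j * finrank K V := by
  rw [(bddEquiv K V j).finrank_eq, Module.finrank_pi_fintype]
  simp

/-- Multiplication by the variable. -/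
def sh : (ℕ → V) →ₗ[K] (ℕ → V) where
  toFun w k := if k = 0 then 0 else w (k - 1)
  map_add' a b := funext fun k => by by_cases h : k = 0 <;> simp [h]
  map_smul' c a := funext fun k => by by_cases h : k = 0 <;> simp [h]

variable {K V}

lemma sh_zero (w : ℕ → V) : sh K V w 0 = 0 := rfl

lemma sh_succ (w : ℕ → V) (k : ℕ) : sh K V w (k + 1) = w k := rfl

lemma sh_bdd {w : ℕ → V} {j : ℕ} (hw : w ∈ bdd K V j) : sh K V w ∈ bdd K V (j + 1) := fun k hk => by
  obtain ⟨k, rfl⟩ : ∃ i, k = i + 1 := ⟨k - 1, by omega⟩
  rw [sh_succ]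
  exact hw k (by omega)

lemma bdd_mono {j j' : ℕ} (h : j ≤ j') : bdd K V j ≤ bdd K V j' := fun _ hw k hk =>
  hw k (h.trans hk)

/-- The value at `r` of a sequence below `j`. -/
def evr (r : K) (j : ℕ) : (ℕ → V) →ₗ[K] V := ∑ k ∈ range j, r ^ k • LinearMap.proj k

lemma evr_apply (r : K) (j : ℕ) (w : ℕ → V) : evr r j w = ∑ k ∈ range j, r ^ k • w k := by
  simp [evr, LinearMap.sum_apply]

lemma evr_mono (r : K) {j j' : ℕ} (h : j ≤ j') {w : ℕ → V} (hw : w ∈ bdd K V j) :
    evr r j' w = evr r j w := by
  rw [evr_apply, evr_apply]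
  refine (sum_subset (range_subset_range.2 h) fun k _ hk => ?_).symm
  rw [hw k (by simpa using hk), smul_zero]

lemma evr_sh (r : K) (j : ℕ) (w : ℕ → V) : evr r (j + 1) (sh K V w) = r • evr r j w := by
  rw [evr_apply, evr_apply, sum_range_succ', smul_sum]
  simp [sh_zero, sh_succ, pow_succ', smul_smul]

/-- Multiplication by `X - r` loses nothing. -/
lemma mul_inj {r : K} {w : ℕ → V} {j : ℕ} (hw : w ∈ bdd K V j)
    (h : sh K V w - r • w = 0) : w = 0 := by
  induction j generalizing w with
  | zero => exact funext fun k => hw k (Nat.zero_le _)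
  | succ j ih =>
    refine ih (fun k hk => ?_) h
    rcases hk.eq_or_lt with rfl | hlt
    · have := congrFun h (j + 1)
      simpa [sh_succ, hw (j + 1) le_rfl] using this
    · exact hw k hlt

/-- Division by `X - r`. -/
lemma exists_div {r : K} {w : ℕ → V} {j : ℕ} (hw : w ∈ bdd K V (j + 1))
    (h : evr r (j + 1) w = 0) : ∃ v ∈ bdd K V j, sh K V v - r • v = w := by
  refine ⟨fun k => ∑ i ∈ range (j + 1), r ^ i • w (k + 1 + i), fun k hk => ?_, funext fun k => ?_⟩
  · exact sum_eq_zero fun i _ => by rw [hw _ (by omega), smul_zero]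
  rcases k with _ | k
  · rw [evr_apply, sum_range_succ'] at h
    simp only [pow_zero, one_smul] at h
    simp only [Pi.sub_apply, Pi.smul_apply, sh_zero, zero_sub]
    rw [sum_range_succ, hw (0 + 1 + j) (by omega), smul_zero, add_zero, smul_sum,
      eq_neg_of_add_eq_zero_right h, neg_inj]
    exact sum_congr rfl fun i _ => by rw [smul_smul, ← pow_succ', zero_add, add_comm 1 i]
  · simp only [Pi.sub_apply, Pi.smul_apply, sh_succ]
    rw [sum_range_succ' _ j, sum_range_succ _ j, hw (k + 1 + 1 + j) (by omega), smul_zero]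
    simp only [add_zero]
    rw [smul_sum]
    rw [pow_zero, one_smul, add_sub_right_comm, add_eq_right, sub_eq_zero]
    exact sum_congr rfl fun i _ => by rw [smul_smul, ← pow_succ', ← add_assoc, add_right_comm _ i]

/-- The product with `f + X g`. -/
def rel (f g : V →ₗ[K] W) : (ℕ → V) →ₗ[K] (ℕ → W) :=
  f.compLeft ℕ + (sh K W).comp (g.compLeft ℕ)

lemma rel_zero (f g : V →ₗ[K] W) (w : ℕ → V) : rel f g w 0 = f (w 0) := by
  simp [rel, sh_zero]

lemma rel_succ (f g : V →ₗ[K] W) (w : ℕ → V) (k : ℕ) :
    rel f g w (k + 1) = f (w (k + 1)) + g (w k) := by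
  simp [rel, sh_succ]

lemma rel_bdd (f g : V →ₗ[K] W) {w : ℕ → V} {j : ℕ} (hw : w ∈ bdd K V j) :
    rel f g w ∈ bdd K W (j + 1) := fun k hk => by
  obtain ⟨k, rfl⟩ : ∃ i, k = i + 1 := ⟨k - 1, by omega⟩
  rw [rel_succ, hw _ (by omega), hw _ (by omega)]
  simp

lemma rel_sh (f g : V →ₗ[K] W) (w : ℕ → V) : rel f g (sh K V w) = sh K W (rel f g w) :=
  funext fun k => by
    rcases k with _ | k
    · simp [rel_zero, sh_zero]
    · rw [rel_succ, sh_succ, sh_succ]
      rcases k with _ | k
      · simp [sh_zero, rel_zero]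
      · rw [sh_succ, rel_succ]

/-- The solutions below `j`. -/
def sol (f g : V →ₗ[K] W) (j : ℕ) : Submodule K (ℕ → V) := bdd K V j ⊓ LinearMap.ker (rel f g)

instance [FiniteDimensional K V] (f g : V →ₗ[K] W) (j : ℕ) : FiniteDimensional K (sol f g j) :=
  Submodule.finiteDimensional_of_le inf_le_left

lemma evr_sol {f g : V →ₗ[K] W} {j : ℕ} {w : ℕ → V} (hw : w ∈ sol f g j) (r : K) :
    f (evr r j w) + r • g (evr r j w) = 0 := by
  have h := congrArg (evr r (j + 1)) (LinearMap.mem_ker.1 hw.2)
  rw [map_zero, rel, LinearMap.add_apply, map_add, LinearMap.comp_apply, evr_sh] at h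
  have e1 : evr r (j + 1) (f.compLeft ℕ w) = f (evr r j w) := by
    rw [← evr_mono r (Nat.le_succ j) hw.1]
    simp [evr_apply, map_sum]
  rw [e1] at h
  simpa [evr_apply, map_sum] using h

/-- Division inside the solutions. -/
lemma sol_div {f g : V →ₗ[K] W} {r : K} {w : ℕ → V} {j : ℕ} (hw : w ∈ sol f g (j + 1))
    (h : evr r (j + 1) w = 0) : ∃ v ∈ sol f g j, sh K V v - r • v = w := by
  obtain ⟨v, hv, e⟩ := exists_div hw.1 h
  refine ⟨v, ⟨hv, LinearMap.mem_ker.2 (mul_inj (r := r) (rel_bdd f g hv) ?_)⟩, e⟩
  rw [← rel_sh, ← map_smul, ← map_sub, e]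
  exact LinearMap.mem_ker.1 hw.2

/-- Surjective members make the product onto, so the solutions have their expected dimension. -/
theorem finrank_sol [IsAlgClosed K] [FiniteDimensional K V] [FiniteDimensional K W]
    {f g : V →ₗ[K] W} (hs : ∀ p q : K, p ≠ 0 ∨ q ≠ 0 → Function.Surjective (p • f + q • g))
    {j : ℕ} (hj : finrank K W ≤ j) :
    finrank K (sol f g j) + (j + 1) * finrank K W = j * finrank K V := by
  classical
  set φ : bdd K V j →ₗ[K] bdd K W (j + 1) := (rel f g).restrict fun w hw => rel_bdd f g hw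
  have hsur : LinearMap.range φ = ⊤ := by
    by_contra hne
    obtain ⟨ψ, hψ0, hψ⟩ := Submodule.exists_le_ker_of_lt_top _ (lt_top_iff_ne_top.2 hne)
    let pu : ℕ → W →ₗ[K] bdd K W (j + 1) := fun k =>
      if h : k < j + 1 then (bddEquiv K W (j + 1)).symm.toLinearMap.comp
        (LinearMap.single K (fun _ : Fin (j + 1) => W) ⟨k, h⟩) else 0
    have hpu : ∀ k < j + 1, ∀ x i, (pu k x).1 i = if i = k then x else 0 := by
      intro k hk x i
      simp only [pu, dif_pos hk, LinearMap.comp_apply]
      show (if h : i < j + 1 then Pi.single (M := fun _ : Fin (j + 1) => W) ⟨k, hk⟩ x ⟨i, h⟩ else 0) = _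
      by_cases hi : i = k
      · subst hi; simp [hk]
      · by_cases h : i < j + 1 <;> simp [h, hi, Fin.ext_iff]
    set μ : ℕ → Module.Dual K W := fun k => ψ.comp (pu k) with hμ
    have hrel : ∀ k < j, f.dualMap (μ k) = (-g.dualMap) (μ (k + 1)) := by
      intro k hk
      refine LinearMap.ext fun x => eq_neg_of_add_eq_zero_left ?_
      set w : bdd K V j := ⟨fun i => if i = k then x else 0, fun i hi => if_neg (by omega)⟩
      have e : φ w = pu k (f x) + pu (k + 1) (g x) := by
        refine Subtype.ext (funext fun i => ?_)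
        rw [Submodule.coe_add, Pi.add_apply, hpu k (by omega), hpu (k + 1) (by omega)]
        show rel f g (fun i => if i = k then x else 0) i = _
        rcases i with _ | i
        · rw [rel_zero]; simp [apply_ite f]
        · rw [rel_succ]; simp [apply_ite f, apply_ite g]
      have := LinearMap.mem_ker.1 (hψ ⟨w, rfl⟩)
      rw [e, map_add] at this
      simpa [μ] using this
    have hz := chain_zero (P := f.dualMap) (Q := -g.dualMap) ?_ (N := j)
      ((Subspace.dual_finrank_eq (K := K) (V := W)).trans_le hj) hrel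
    swap
    · intro p q hpq x hx
      refine LinearMap.ext fun y => ?_
      obtain ⟨z, rfl⟩ := hs p (-q) (by simpa using hpq) y
      have := LinearMap.congr_fun hx z
      simp at this ⊢
      linear_combination this
    refine hψ0 (LinearMap.ext fun y => ?_)
    have hy : y = ∑ k ∈ range (j + 1), pu k (y.1 k) := by
      refine Subtype.ext (funext fun i => ?_)
      rw [Submodule.coe_sum, Finset.sum_apply, sum_congr rfl fun k hk => hpu k (mem_range.1 hk) _ i]
      rw [sum_ite_eq]
      split_ifs with hi
      · rfl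
      · exact y.2 i (by simpa using hi)
    rw [hy, map_sum]
    exact sum_eq_zero fun k hk =>
      LinearMap.congr_fun (hz k (Nat.lt_succ_iff.1 (mem_range.1 hk))) _
  have hker : finrank K (LinearMap.ker φ) = finrank K (sol f g j) := by
    have : sol f g j = (LinearMap.ker φ).map (bdd K V j).subtype := by
      ext w
      constructor
      · exact fun hw => ⟨⟨w, hw.1⟩, LinearMap.mem_ker.2 (Subtype.ext (LinearMap.mem_ker.1 hw.2)), rfl⟩
      · rintro ⟨x, hx, rfl⟩
        exact ⟨x.2, LinearMap.mem_ker.2 (congrArg Subtype.val (LinearMap.mem_ker.1 hx) :)⟩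
    rw [this, Submodule.finrank_map_subtype_eq]
  have := LinearMap.finrank_range_add_finrank_ker φ
  rw [hsur, finrank_top, finrank_bdd, finrank_bdd, hker] at this
  omega

end Vale.Agent.P200.Slope
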